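import Vale.Agent.P038.H645.Thm

/-!
# The strict inequality (G) and Seymour's second neighbourhood conjecture
-/

namespace Vale.Agent.P038.H645

open Finset

variable {V : Type*} [Fintype V]

/-- A counterexample. -/
def CE (D : OGraph V) : Prop := ∀ v, (N2 D v).card < (N1 D v).card

/-- The number of arcs. -/
noncomputable def numArcs (D : OGraph V) : ℕ := ∑ v, (N1 D v).card

/-- Delete all arcs from `X` to `Z`. -/
def del (D : OGraph V) (X Z : Finset V) : OGraph V where
  arc a b := D.arc a b ∧ ¬ (a ∈ X ∧ b ∈ Z)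
  loopless v h := D.loopless v h.1
  asymm _ _ h h' := D.asymm _ _ h.1 h'.1

variable [DecidableEq V]

theorem strictG {D : OGraph V} (hCE : CE D)
    (hmin : ∀ D' : OGraph V, CE D' → numArcs D ≤ numArcs D') (X : Finset V)
    (hX : cl D X ≠ X) : c D (cl D X) < c D X := by
  obtain ⟨L, hL⟩ : ∃ L : Finset V, L = cl D X \ X := ⟨_, rfl⟩
  have hLX : Disjoint L X := hL ▸ sdiff_disjoint
  have hLne : L.Nonempty := by
    rw [hL, sdiff_nonempty]
    exact fun h => hX (Subset.antisymm h (subset_cl D X))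
  have hmemL : ∀ z, z ∈ L ↔ (∃ y ∈ X, D.arc y z) ∧ z ∉ X := by
    intro z
    rw [hL, mem_sdiff, mem_cl]
    constructor
    · rintro ⟨h | h, h'⟩
      · exact absurd h h'
      · exact ⟨h, h'⟩
    · rintro ⟨h, h'⟩
      exact ⟨Or.inr h, h'⟩
  by_contra hcon
  push Not at hcon
  obtain ⟨d, hd⟩ : ∃ d : Finset V → ℤ, ∀ T, d T = ((cl D T \ X).card : ℤ) - 2 * T.card :=
    ⟨_, fun _ => rfl⟩
  -- d L ≥ 0
  have hdL : 0 ≤ d L := by
    rw [c_eq, c_eq, ← hL] at hcon
    have h1 : L.card ≤ (cl D (cl D X) \ cl D X).card := by exact_mod_cast hcon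
    have h2 : (cl D (cl D X) \ cl D X) ∪ L ⊆ cl D L \ X := by
      intro z hz
      rw [mem_sdiff]
      rcases mem_union.1 hz with hz | hz
      · obtain ⟨hz1, hz2⟩ := mem_sdiff.1 hz
        refine ⟨?_, fun h => hz2 (subset_cl D X h)⟩
        rw [mem_cl'] at hz1
        obtain ⟨y, hy, hyz⟩ := hz1
        rw [mem_cl']
        refine ⟨y, ?_, hyz⟩
        rw [hL, mem_sdiff]
        exact ⟨hy, fun h => hz2 (mem_cl'.2 ⟨y, h, hyz⟩)⟩
      · exact ⟨subset_cl D L hz, disjoint_left.1 hLX hz⟩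
    have h3 : Disjoint (cl D (cl D X) \ cl D X) L := by
      rw [disjoint_left]
      intro z hz hz'
      rw [hL] at hz'
      exact (mem_sdiff.1 hz).2 (mem_sdiff.1 hz').1
    have h4 := card_le_card h2
    rw [card_union_of_disjoint h3] at h4
    rw [hd]
    omega
  have hd0 : d ∅ = 0 := by
    have : cl D (∅ : Finset V) = ∅ := by
      rw [eq_empty_iff_forall_notMem]
      intro z hz
      rw [mem_cl'] at hz
      simp at hz
    rw [hd, this]
    simp
  -- minimiser of d among the proper subsets of L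
  obtain ⟨T, hT, hTmin⟩ := Finset.exists_min_image L.ssubsets d
    ⟨∅, mem_ssubsets.2 (empty_ssubset.2 hLne)⟩
  have hTL : T ⊂ L := mem_ssubsets.1 hT
  have hm : ∀ S ⊆ L, d T ≤ d S := by
    intro S hS
    rcases eq_or_ssubset_of_subset hS with rfl | h
    · have := hTmin ∅ (mem_ssubsets.2 (empty_ssubset.2 hLne))
      omega
    · exact hTmin S (mem_ssubsets.2 h)
  obtain ⟨Z, hZ⟩ : ∃ Z : Finset V, Z = L \ T := ⟨_, rfl⟩
  obtain ⟨D', hD'⟩ : ∃ D' : OGraph V, D' = del D X Z := ⟨_, rfl⟩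
  have harc : ∀ a b, D'.arc a b ↔ D.arc a b ∧ ¬ (a ∈ X ∧ b ∈ Z) := by
    intro a b
    rw [hD']
    rfl
  have key : ∀ y ∈ X, (N2 D' y).card < (N1 D' y).card := by
    intro y hy
    obtain ⟨Dy, hDy⟩ : ∃ Dy : Finset V, Dy = N1 D y ∩ Z := ⟨_, rfl⟩
    obtain ⟨Ey, hEy⟩ : ∃ Ey : Finset V, Ey = cl D Dy \ (cl D T ∪ X) := ⟨_, rfl⟩
    have hN1 : N1 D' y = N1 D y \ Dy := by
      ext z
      rw [mem_N1, mem_sdiff, hDy, mem_inter, mem_N1, harc]
      constructor
      · rintro ⟨h1, h2⟩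
        exact ⟨h1, fun h3 => h2 ⟨hy, h3.2⟩⟩
      · rintro ⟨h1, h2⟩
        exact ⟨h1, fun h3 => h2 ⟨h1, h3.2⟩⟩
    have hDyL : Dy ⊆ L := by
      rw [hDy, hZ]
      exact inter_subset_right.trans sdiff_subset
    have hEsub : Ey ⊆ N2 D y ∪ Dy := by
      intro z hz
      rw [hEy] at hz
      obtain ⟨hz1, hz2⟩ := mem_sdiff.1 hz
      have hzX : z ∉ X := fun h3 => hz2 (mem_union_right _ h3)
      have hzT : z ∉ cl D T := fun h3 => hz2 (mem_union_left _ h3)
      rw [mem_cl] at hz1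
      rcases hz1 with hz1 | ⟨a, ha, haz⟩
      · exact mem_union_right _ hz1
      · have hya : D.arc y a := by
          rw [hDy] at ha
          exact mem_N1.1 (mem_inter.1 ha).1
        by_cases hyz : D.arc y z
        · refine mem_union_right _ ?_
          rw [hDy]
          refine mem_inter.2 ⟨mem_N1.2 hyz, ?_⟩
          rw [hZ]
          exact mem_sdiff.2 ⟨(hmemL z).2 ⟨⟨y, hy, hyz⟩, hzX⟩,
            fun h3 => hzT (subset_cl D T h3)⟩
        · refine mem_union_left _ (mem_N2.2 ⟨?_, hyz, a, hya, haz⟩)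
          rintro rfl
          exact hzX hy
    have hN2 : N2 D' y ⊆ (N2 D y ∪ Dy) \ Ey := by
      intro z hz
      rw [mem_N2] at hz
      obtain ⟨hzy, hnz, a, hya, haz⟩ := hz
      rw [harc] at hnz hya haz
      refine mem_sdiff.2 ⟨?_, ?_⟩
      · by_cases hyz : D.arc y z
        · refine mem_union_right _ ?_
          rw [hDy]
          refine mem_inter.2 ⟨mem_N1.2 hyz, ?_⟩
          by_contra hzZ
          exact hnz ⟨hyz, fun h3 => hzZ h3.2⟩
        · exact mem_union_left _ (mem_N2.2 ⟨hzy, hyz, a, hya.1, haz.1⟩)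
      · intro hzE
        rw [hEy] at hzE
        obtain ⟨_, hz2⟩ := mem_sdiff.1 hzE
        have hzX : z ∉ X := fun h3 => hz2 (mem_union_right _ h3)
        have hzT : z ∉ cl D T := fun h3 => hz2 (mem_union_left _ h3)
        by_cases haX : a ∈ X
        · have hzL : z ∈ L := (hmemL z).2 ⟨⟨a, haX, haz.1⟩, hzX⟩
          have hzZ : z ∈ Z := by
            rw [hZ]
            exact mem_sdiff.2 ⟨hzL, fun h3 => hzT (subset_cl D T h3)⟩
          exact haz.2 ⟨haX, hzZ⟩
        · have haL : a ∈ L := (hmemL a).2 ⟨⟨y, hy, hya.1⟩, haX⟩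
          have haT : a ∈ T := by
            by_contra haT
            refine hya.2 ⟨hy, ?_⟩
            rw [hZ]
            exact mem_sdiff.2 ⟨haL, haT⟩
          exact hzT (mem_cl.2 (Or.inr ⟨a, haT, haz.1⟩))
    have hDT : Disjoint T Dy := by
      rw [disjoint_left]
      intro z hz hz'
      rw [hDy, hZ] at hz'
      exact (mem_sdiff.1 (mem_inter.1 hz').2).2 hz
    have h1 := hm (T ∪ Dy) (union_subset hTL.1 hDyL)
    rw [hd, hd, card_union_of_disjoint hDT] at h1
    have e1 : cl D (T ∪ Dy) \ X ⊆ (cl D T \ X) ∪ Ey := by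
      intro z hz
      obtain ⟨hz1, hz2⟩ := mem_sdiff.1 hz
      obtain ⟨a, ha, haz⟩ := mem_cl'.1 hz1
      by_cases hzT : z ∈ cl D T
      · exact mem_union_left _ (mem_sdiff.2 ⟨hzT, hz2⟩)
      · refine mem_union_right _ ?_
        rw [hEy]
        refine mem_sdiff.2 ⟨mem_cl'.2 ⟨a, ?_, haz⟩, ?_⟩
        · rcases mem_union.1 ha with h | h
          · exact absurd (mem_cl'.2 ⟨a, h, haz⟩) hzT
          · exact h
        · intro h
          rcases mem_union.1 h with h | h
          · exact hzT h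
          · exact hz2 h
    have e2 := (card_le_card e1).trans (card_union_le _ _)
    have e3 := card_le_card hN2
    have e4 := card_sdiff_add_card_eq_card hEsub
    have e5 := card_union_le (N2 D y) Dy
    have e6 : (N1 D y \ Dy).card + Dy.card = (N1 D y).card := by
      apply card_sdiff_add_card_eq_card
      rw [hDy]
      exact inter_subset_left
    have e7 := hCE y
    rw [hN1]
    push_cast at h1
    omega
  have hCE' : CE D' := by
    intro y
    by_cases hy : y ∈ X
    · exact key y hy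
    · have h1 : N1 D' y = N1 D y := by
        ext z
        rw [mem_N1, mem_N1, harc]
        exact ⟨fun h => h.1, fun h => ⟨h, fun h3 => hy h3.1⟩⟩
      have h2 : N2 D' y ⊆ N2 D y := by
        intro z hz
        rw [mem_N2] at hz ⊢
        obtain ⟨hzy, hnz, a, hya, haz⟩ := hz
        rw [harc] at hnz hya haz
        exact ⟨hzy, fun h => hnz ⟨h, fun h3 => hy h3.1⟩, a, hya.1, haz.1⟩
      rw [h1]
      exact (card_le_card h2).trans_lt (hCE y)
  have hlt : numArcs D' < numArcs D := by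
    unfold numArcs
    have hsub : ∀ v, N1 D' v ⊆ N1 D v := by
      intro v z hz
      rw [mem_N1] at hz ⊢
      rw [harc] at hz
      exact hz.1
    obtain ⟨z, hzL, hzT⟩ := exists_of_ssubset hTL
    obtain ⟨⟨y, hy, hyz⟩, -⟩ := (hmemL z).1 hzL
    refine sum_lt_sum (fun v _ => card_le_card (hsub v)) ⟨y, mem_univ _, card_lt_card
      ⟨hsub y, fun h => ?_⟩⟩
    have h1 := h (mem_N1.2 hyz)
    rw [mem_N1, harc] at h1
    refine h1.2 ⟨hy, ?_⟩
    rw [hZ]
    exact mem_sdiff.2 ⟨hzL, hzT⟩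
  have := hmin D' hCE'
  omega

omit [DecidableEq V] in
/-- **Seymour's second neighbourhood conjecture.** -/
theorem snc [Nonempty V] (D : OGraph V) : ∃ v, (N1 D v).card ≤ (N2 D v).card := by
  classical
  by_contra hcon
  push Not at hcon
  have hex : ∃ n, ∃ D : OGraph V, CE D ∧ numArcs D = n := ⟨_, D, hcon, rfl⟩
  obtain ⟨D0, hD0, hn⟩ := Nat.find_spec hex
  have hmin : ∀ D' : OGraph V, CE D' → numArcs D0 ≤ numArcs D' := by
    intro D' h'
    rw [hn]
    exact Nat.find_min' hex ⟨D', h', rfl⟩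
  refine contra D0 (fun v => ?_) (fun X hX => strictG hD0 hmin X hX)
  have h1 := hD0 v
  have h2 : (N1 D0 v).Nonempty := by
    rw [← card_pos]
    omega
  obtain ⟨u, hu⟩ := h2
  exact ⟨u, mem_N1.1 hu⟩

end Vale.Agent.P038.H645
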