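import Vale.Agent.P038.MathlibUsed

/-!
# The two-dimensional Hall lemma
-/

namespace Vale.Agent.P038.H645

open Finset

variable {V : Type*} [Fintype V] [DecidableEq V]

/-- `(J R)_v`: the intersection of the rows `R_s`, `s ∈ I v`. -/
def J (I : V → Finset V) (R : V → Finset V) (v : V) : Finset V :=
  univ.filter fun x => ∀ s ∈ I v, x ∈ R s

theorem mem_J {I R : V → Finset V} {v x : V} : x ∈ J I R v ↔ ∀ s ∈ I v, x ∈ R s := by
  simp [J]

theorem J_mono {I B U : V → Finset V} (h : ∀ a, B a ⊆ U a) (v : V) : J I B v ⊆ J I U v := by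
  intro x hx
  rw [mem_J] at hx ⊢
  exact fun s hs => h s (hx s hs)

theorem shrink {g : Finset V → ℝ} (hsub : ∀ S T, g (S ∪ T) + g (S ∩ T) ≤ g S + g T)
    {B U : V → Finset V} (hBU : ∀ a, B a ⊆ U a)
    (hR : ∀ a T, B a ⊆ T → T ⊆ U a → g (B a) ≤ g T) (T : Finset V) (I' : Finset V) :
    (∀ s ∈ I', T ⊆ U s) → g (T.filter fun x => ∀ s ∈ I', x ∈ B s) ≤ g T := by
  induction I' using Finset.induction_on with
  | empty => intro _; simp
  | insert s I' hs ih =>
    intro hT
    have h1 := ih (fun s hs => hT s (mem_insert_of_mem hs))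
    set T' := T.filter fun x => ∀ s ∈ I', x ∈ B s with hT'
    have h2 : (T.filter fun x => ∀ s' ∈ insert s I', x ∈ B s') = T' ∩ B s := by
      ext x
      simp only [hT', mem_filter, mem_inter, mem_insert]
      constructor
      · rintro ⟨h, h'⟩
        exact ⟨⟨h, fun s' hs' => h' s' (Or.inr hs')⟩, h' s (Or.inl rfl)⟩
      · rintro ⟨⟨h, h'⟩, h''⟩
        refine ⟨h, fun s' hs' => ?_⟩
        rcases hs' with rfl | hs'
        · exact h''
        · exact h' s' hs'
    have h3 := hsub T' (B s)
    have h4 := hR s (T' ∪ B s) subset_union_right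
      (union_subset ((filter_subset _ _).trans (hT s (mem_insert_self _ _))) (hBU s))
    rw [h2]
    linarith

theorem dc (R : V → Finset V) :
    ∑ a, (R a).card = ∑ x, (univ.filter fun a => x ∈ R a).card := by
  have h1 : ∀ a, (R a).card = ∑ x, if x ∈ R a then 1 else 0 := by intro a; simp
  have h2 : ∀ x, (univ.filter fun a => x ∈ R a).card = ∑ a, if x ∈ R a then 1 else 0 := by
    intro x; simp
  simp only [h1, h2]
  exact sum_comm

theorem lemma1 (I U : V → Finset V) (n : ℕ) :
    ∀ (f : Finset V → ℝ) (B : V → Finset V),
      (∀ S T, f (S ∪ T) + f (S ∩ T) ≤ f S + f T) →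
      (∀ a, B a ⊆ U a) →
      (∀ a T, B a ⊆ T → T ⊆ U a → f (B a) ≤ f T) →
      (∀ (x : V) (K : Finset V), (∀ a ∈ K, x ∈ U a ∧ x ∉ B a) →
        K.card ≤ (univ.filter fun v => x ∈ J I U v ∧ ∃ a ∈ K, a ∈ I v).card) →
      ∑ a, (U a \ B a).card = n →
      ∑ a, (f (U a) - f (B a)) ≤ ∑ v, (f (J I U v) - f (J I B v)) := by
  induction n using Nat.strong_induction_on with
  | _ n ih =>
    intro f B hsub hBU hR hC hn
    by_cases h0 : ∀ a, B a = U a
    · have : B = U := funext h0
      subst this
      simp
    · push Not at h0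
      obtain ⟨a1, ha1⟩ := h0
      let P : Finset (V × Finset V) :=
        univ.filter fun p => p.2.Nonempty ∧ p.2 ⊆ U p.1 \ B p.1
      have hP : P.Nonempty := by
        refine ⟨(a1, U a1 \ B a1), mem_filter.2 ⟨mem_univ _, ?_, Subset.rfl⟩⟩
        rw [sdiff_nonempty]
        exact fun h => ha1 (Subset.antisymm (hBU a1) h)
      obtain ⟨⟨a0, S0⟩, hp, hmin⟩ := Finset.exists_min_image P
        (fun p => (f (B p.1 ∪ p.2) - f (B p.1)) / (p.2.card : ℝ)) hP
      obtain ⟨-, hS0ne, hS0⟩ := mem_filter.1 hp
      simp only at hS0ne hS0 hmin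
      obtain ⟨lam, hlam⟩ : ∃ lam : ℝ, lam = (f (B a0 ∪ S0) - f (B a0)) / (S0.card : ℝ) :=
        ⟨_, rfl⟩
      rw [← hlam] at hmin
      have hS0c : (0 : ℝ) < S0.card := by exact_mod_cast card_pos.2 hS0ne
      have hlam0 : 0 ≤ lam := by
        rw [hlam]
        refine div_nonneg (sub_nonneg.2 (hR a0 _ subset_union_left
          (union_subset (hBU a0) (hS0.trans sdiff_subset)))) hS0c.le
      have hlamS0 : lam * S0.card = f (B a0 ∪ S0) - f (B a0) := by
        rw [hlam]
        field_simp
      have hmin' : ∀ a S, S.Nonempty → S ⊆ U a \ B a →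
          lam * S.card ≤ f (B a ∪ S) - f (B a) := by
        intro a S hS hSU
        have h1 := hmin (a, S) (mem_filter.2 ⟨mem_univ _, hS, hSU⟩)
        have hSc : (0 : ℝ) < S.card := by exact_mod_cast card_pos.2 hS
        rwa [le_div_iff₀ hSc] at h1
      set g : Finset V → ℝ := fun S => f S - lam * S.card with hg
      have hgsub : ∀ S T, g (S ∪ T) + g (S ∩ T) ≤ g S + g T := by
        intro S T
        have h1 := hsub S T
        have h2 : ((S ∪ T).card : ℝ) + (S ∩ T).card = S.card + T.card := by
          exact_mod_cast card_union_add_card_inter S T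
        have h3 : lam * ((S ∪ T).card + (S ∩ T).card : ℝ) = lam * (S.card + T.card) := by
          rw [h2]
        simp only [hg]
        linarith
      have hgR : ∀ a T, B a ⊆ T → T ⊆ U a → g (B a) ≤ g T := by
        intro a T h1 h2
        by_cases hT : (T \ B a).Nonempty
        · have h3 := hmin' a (T \ B a) hT (sdiff_subset_sdiff h2 Subset.rfl)
          rw [union_sdiff_of_subset h1] at h3
          have h4 : ((T \ B a).card : ℝ) + (B a).card = T.card := by
            exact_mod_cast card_sdiff_add_card_eq_card h1
          have h5 : lam * ((T \ B a).card + (B a).card : ℝ) = lam * T.card := by rw [h4]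
          simp only [hg]
          linarith
        · rw [not_nonempty_iff_eq_empty, sdiff_eq_empty_iff_subset] at hT
          rw [Subset.antisymm h1 hT]
      set B' : V → Finset V := Function.update B a0 (B a0 ∪ S0) with hB'
      have hBa0 : B' a0 = B a0 ∪ S0 := by simp [hB']
      have hBne : ∀ a, a ≠ a0 → B' a = B a := by
        intro a ha
        simp [hB', ha]
      have hBg : ∀ a, g (B' a) = g (B a) := by
        intro a
        by_cases ha : a = a0
        · subst ha
          rw [hBa0]
          have h1 : ((B a ∪ S0).card : ℝ) = (B a).card + S0.card := by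
            have : Disjoint (B a) S0 := by
              rw [disjoint_left]
              intro x hx hx'
              exact (mem_sdiff.1 (hS0 hx')).2 hx
            exact_mod_cast card_union_of_disjoint this
          simp only [hg]
          rw [h1]
          linarith
        · rw [hBne a ha]
      have hBB' : ∀ a, B a ⊆ B' a := by
        intro a
        by_cases ha : a = a0
        · subst ha
          rw [hBa0]
          exact subset_union_left
        · rw [hBne a ha]
      have hB'U : ∀ a, B' a ⊆ U a := by
        intro a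
        by_cases ha : a = a0
        · subst ha
          rw [hBa0]
          exact union_subset (hBU a) (hS0.trans sdiff_subset)
        · rw [hBne a ha]
          exact hBU a
      have hlt : ∑ a, (U a \ B' a).card < ∑ a, (U a \ B a).card := by
        refine Finset.sum_lt_sum
          (fun a _ => card_le_card (sdiff_subset_sdiff Subset.rfl (hBB' a)))
          ⟨a0, mem_univ _, card_lt_card ?_⟩
        refine ⟨sdiff_subset_sdiff Subset.rfl (hBB' a0), fun h => ?_⟩
        obtain ⟨x, hx⟩ := hS0ne
        have h1 := h (hS0 hx)
        rw [hBa0] at h1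
        exact (mem_sdiff.1 h1).2 (mem_union_right _ hx)
      have h1 := ih _ (hn ▸ hlt) g B' hgsub hB'U
        (by
          intro a T h1 h2
          rw [hBg]
          exact hgR a T ((hBB' a).trans h1) h2)
        (by
          intro x K hK
          exact hC x K fun a ha => ⟨(hK a ha).1, fun h => (hK a ha).2 (hBB' a h)⟩) rfl
      have h2 : ∀ v, g (J I B v) ≤ g (J I B' v) := by
        intro v
        have h3 := shrink hgsub hBU hgR (J I B' v) (I v) (by
          intro s hs x hx
          rw [mem_J] at hx
          exact hB'U s (hx s hs))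
        have h4 : ((J I B' v).filter fun x => ∀ s ∈ I v, x ∈ B s) = J I B v := by
          ext x
          simp only [mem_filter, mem_J]
          exact ⟨fun h => h.2, fun h => ⟨fun s hs => hBB' s (h s hs), h⟩⟩
        rwa [h4] at h3
      have h3 : ∑ a, ((U a \ B a).card : ℝ) ≤ ∑ v, ((J I U v \ J I B v).card : ℝ) := by
        have h4 : ∑ a, (U a \ B a).card ≤ ∑ v, (J I U v \ J I B v).card := by
          rw [dc (fun a => U a \ B a), dc (fun v => J I U v \ J I B v)]
          refine Finset.sum_le_sum fun x _ => ?_
          refine (hC x _ ?_).trans (card_le_card ?_)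
          · intro a ha
            rw [mem_filter, mem_sdiff] at ha
            exact ha.2
          · intro v hv
            rw [mem_filter] at hv ⊢
            obtain ⟨-, hv, a, ha, haI⟩ := hv
            rw [mem_filter, mem_sdiff] at ha
            refine ⟨mem_univ _, mem_sdiff.2 ⟨hv, fun h => ha.2.2 ?_⟩⟩
            rw [mem_J] at h
            exact h a haI
        exact_mod_cast h4
      have e1 : ∑ a, (f (U a) - f (B a)) =
          ∑ a, (g (U a) - g (B' a)) + lam * ∑ a, ((U a \ B a).card : ℝ) := by
        rw [mul_sum, ← sum_add_distrib]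
        refine sum_congr rfl fun a _ => ?_
        rw [hBg]
        have h4 : ((U a \ B a).card : ℝ) + (B a).card = (U a).card := by
          exact_mod_cast card_sdiff_add_card_eq_card (hBU a)
        simp only [hg]
        rw [← h4]
        ring
      have e2 : ∑ v, (f (J I U v) - f (J I B v)) =
          ∑ v, (g (J I U v) - g (J I B v)) + lam * ∑ v, ((J I U v \ J I B v).card : ℝ) := by
        rw [mul_sum, ← sum_add_distrib]
        refine sum_congr rfl fun v _ => ?_
        have h4 : ((J I U v \ J I B v).card : ℝ) + (J I B v).card = (J I U v).card := by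
          exact_mod_cast card_sdiff_add_card_eq_card (J_mono hBU v)
        simp only [hg]
        rw [← h4]
        ring
      have h4 : ∑ v, (g (J I U v) - g (J I B' v)) ≤ ∑ v, (g (J I U v) - g (J I B v)) :=
        sum_le_sum fun v _ => by linarith [h2 v]
      have h5 := mul_le_mul_of_nonneg_left h3 hlam0
      rw [e1, e2]
      linarith

end Vale.Agent.P038.H645
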