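import Vale.Agent.P038.Defs
import Vale.Agent.P038.H645.Lem

/-!
# The contradiction from the strict inequality (G)
-/

namespace Vale.Agent.P038.H645

open Finset

variable {V : Type*} [Fintype V]

open Classical in
/-- The closed out-neighbourhood of a set. -/
noncomputable def cl (D : OGraph V) (S : Finset V) : Finset V :=
  univ.filter fun z => z ∈ S ∨ ∃ y ∈ S, D.arc y z

open Classical in
/-- The closed in-neighbourhood of a vertex. -/
noncomputable def inn (D : OGraph V) (v : V) : Finset V :=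
  univ.filter fun s => s = v ∨ D.arc s v

theorem mem_cl {D : OGraph V} {S : Finset V} {z : V} :
    z ∈ cl D S ↔ z ∈ S ∨ ∃ y ∈ S, D.arc y z := by
  classical
  simp [cl]

theorem mem_inn {D : OGraph V} {s v : V} : s ∈ inn D v ↔ s = v ∨ D.arc s v := by
  classical
  simp [inn]

theorem self_inn (D : OGraph V) (v : V) : v ∈ inn D v := mem_inn.2 (Or.inl rfl)

theorem mem_cl' {D : OGraph V} {S : Finset V} {z : V} :
    z ∈ cl D S ↔ ∃ y ∈ S, y ∈ inn D z := by
  rw [mem_cl]
  constructor
  · rintro (h | ⟨y, hy, h⟩)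
    · exact ⟨z, h, self_inn D z⟩
    · exact ⟨y, hy, mem_inn.2 (Or.inr h)⟩
  · rintro ⟨y, hy, h⟩
    rcases mem_inn.1 h with rfl | h
    · exact Or.inl hy
    · exact Or.inr ⟨y, hy, h⟩

theorem subset_cl (D : OGraph V) (S : Finset V) : S ⊆ cl D S := fun _ h => mem_cl.2 (Or.inl h)

theorem cl_mono (D : OGraph V) {S T : Finset V} (h : S ⊆ T) : cl D S ⊆ cl D T := by
  intro z hz
  rw [mem_cl'] at hz ⊢
  obtain ⟨y, hy, hyz⟩ := hz
  exact ⟨y, h hy, hyz⟩

/-- `c(S) = |N[S]| - |S|`. -/
noncomputable def c (D : OGraph V) (S : Finset V) : ℝ := ((cl D S).card : ℝ) - S.card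

variable [DecidableEq V]

theorem c_eq (D : OGraph V) (S : Finset V) : c D S = ((cl D S \ S).card : ℝ) := by
  have h4 : ((cl D S \ S).card : ℝ) + S.card = (cl D S).card := by
    exact_mod_cast card_sdiff_add_card_eq_card (subset_cl D S)
  unfold c
  linarith

theorem c_sub (D : OGraph V) (S T : Finset V) :
    c D (S ∪ T) + c D (S ∩ T) ≤ c D S + c D T := by
  have h1 : cl D (S ∪ T) ⊆ cl D S ∪ cl D T := by
    intro z hz
    rw [mem_union, mem_cl', mem_cl']
    obtain ⟨y, hy, hyz⟩ := mem_cl'.1 hz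
    rcases mem_union.1 hy with h | h
    · exact Or.inl ⟨y, h, hyz⟩
    · exact Or.inr ⟨y, h, hyz⟩
  have h2 : cl D (S ∩ T) ⊆ cl D S ∩ cl D T :=
    subset_inter (cl_mono D inter_subset_left) (cl_mono D inter_subset_right)
  have h3 : ((cl D (S ∪ T)).card : ℝ) ≤ (cl D S ∪ cl D T).card := by
    exact_mod_cast card_le_card h1
  have h4 : ((cl D (S ∩ T)).card : ℝ) ≤ (cl D S ∩ cl D T).card := by
    exact_mod_cast card_le_card h2
  have h5 : ((cl D S ∪ cl D T).card : ℝ) + (cl D S ∩ cl D T).card =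
      (cl D S).card + (cl D T).card := by
    exact_mod_cast card_union_add_card_inter _ _
  have h6 : ((S ∪ T).card : ℝ) + (S ∩ T).card = S.card + T.card := by
    exact_mod_cast card_union_add_card_inter _ _
  unfold c
  linarith

/-- The valid pairs. -/
structure Valid (D : OGraph V) (B U : V → Finset V) : Prop where
  self : ∀ a, a ∈ B a
  arc : ∀ a x, D.arc a x → x ∈ B a
  sub : ∀ a, B a ⊆ U a
  no : ∀ a x, x ∈ U a → ¬ D.arc x a

/-- The objective. -/
noncomputable def o (D : OGraph V) (B U : V → Finset V) : ℝ :=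
  ∑ a, c D (B a) + (∑ a, ((U a).card : ℝ) - ∑ a, ((J (inn D) U a).card : ℝ))

theorem exists_min (D : OGraph V) :
    ∃ B U, Valid D B U ∧ ∀ B' U', Valid D B' U' → o D B U ≤ o D B' U' := by
  obtain ⟨⟨B, U⟩, h, hmin⟩ := Set.exists_min_image
    {p : (V → Finset V) × (V → Finset V) | Valid D p.1 p.2} (fun p => o D p.1 p.2)
    (Set.toFinite _) ⟨(fun a => cl D {a}, fun a => cl D {a}), by
      refine ⟨fun a => ?_, fun a x h => ?_, fun a => Subset.rfl, fun a x hx h => ?_⟩
      · exact subset_cl D _ (mem_singleton_self a)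
      · exact mem_cl.2 (Or.inr ⟨a, mem_singleton_self a, h⟩)
      · rw [mem_cl] at hx
        rcases hx with hx | ⟨y, hy, hyx⟩
        · rw [mem_singleton] at hx
          subst hx
          exact D.loopless _ h
        · rw [mem_singleton] at hy
          subst hy
          exact D.asymm _ _ h hyx⟩
  exact ⟨B, U, h, fun B' U' h' => hmin (B', U') h'⟩

/-- Row optimality. -/
theorem row {D : OGraph V} {B U : V → Finset V} (hV : Valid D B U)
    (hmin : ∀ B' U', Valid D B' U' → o D B U ≤ o D B' U') (a : V) (T : Finset V)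
    (h1 : B a ⊆ T) (h2 : T ⊆ U a) : c D (B a) ≤ c D T := by
  have hsub : ∀ x, B x ⊆ Function.update B a T x := by
    intro x
    by_cases hx : x = a
    · subst hx; simpa using h1
    · simp [hx]
  have hV' : Valid D (Function.update B a T) U := by
    refine ⟨fun x => hsub x (hV.self x), fun x y h => hsub x (hV.arc x y h), fun x => ?_, hV.no⟩
    by_cases hx : x = a
    · subst hx; simpa using h2
    · simpa [hx] using hV.sub x
  have h3 := hmin _ _ hV'
  have e : ∑ x, c D (Function.update B a T x) - ∑ x, c D (B x) = c D T - c D (B a) := by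
    rw [← sum_sub_distrib, Finset.sum_eq_single a]
    · simp
    · intro b _ hb
      simp [hb]
    · simp
  unfold o at h3
  linarith

/-- Column optimality. -/
theorem col {D : OGraph V} {B U : V → Finset V} (hV : Valid D B U)
    (hmin : ∀ B' U', Valid D B' U' → o D B U ≤ o D B' U') (x : V) (K : Finset V)
    (hK : ∀ a ∈ K, x ∈ U a ∧ x ∉ B a) :
    K.card ≤ (univ.filter fun v => x ∈ J (inn D) U v ∧ ∃ a ∈ K, a ∈ inn D v).card := by
  set U' : V → Finset V := fun a => if a ∈ K then (U a).erase x else U a with hU'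
  have hsub : ∀ a, U' a ⊆ U a := by
    intro a
    simp only [hU']
    split_ifs with h
    · exact erase_subset _ _
    · exact Subset.rfl
  have hmemU' : ∀ a y, y ∈ U' a ↔ y ∈ U a ∧ ¬ (y = x ∧ a ∈ K) := by
    intro a y
    simp only [hU']
    split_ifs with h
    · rw [mem_erase]
      tauto
    · tauto
  have hV' : Valid D B U' := by
    refine ⟨hV.self, hV.arc, fun a y hy => ?_, fun a y hy => hV.no a y (hsub a hy)⟩
    rw [hmemU']
    refine ⟨hV.sub a hy, ?_⟩
    rintro ⟨rfl, ha⟩
    exact (hK a ha).2 hy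
  have h3 := hmin _ _ hV'
  have e1 : ∑ a, ((U a).card : ℝ) = ∑ a, ((U' a).card : ℝ) + (K.card : ℝ) := by
    have : (K.card : ℝ) = ∑ a, if a ∈ K then (1 : ℝ) else 0 := by simp
    rw [this, ← sum_add_distrib]
    refine sum_congr rfl fun a _ => ?_
    by_cases ha : a ∈ K
    · have : U' a = (U a).erase x := by simp [hU', ha]
      rw [this, if_pos ha]
      exact_mod_cast (card_erase_add_one (hK a ha).1).symm
    · have : U' a = U a := by simp [hU', ha]
      rw [this, if_neg ha, add_zero]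
  have e2 : ∑ v, ((J (inn D) U v).card : ℝ) = ∑ v, ((J (inn D) U' v).card : ℝ) +
      ((univ.filter fun v => x ∈ J (inn D) U v ∧ ∃ a ∈ K, a ∈ inn D v).card : ℝ) := by
    have : ((univ.filter fun v => x ∈ J (inn D) U v ∧ ∃ a ∈ K, a ∈ inn D v).card : ℝ) =
        ∑ v, if x ∈ J (inn D) U v ∧ ∃ a ∈ K, a ∈ inn D v then (1 : ℝ) else 0 := by simp
    rw [this, ← sum_add_distrib]
    refine sum_congr rfl fun v _ => ?_
    by_cases hv : x ∈ J (inn D) U v ∧ ∃ a ∈ K, a ∈ inn D v
    · have : J (inn D) U' v = (J (inn D) U v).erase x := by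
        ext y
        rw [mem_erase, mem_J, mem_J]
        simp only [hmemU']
        obtain ⟨-, a, ha, hav⟩ := hv
        constructor
        · intro h
          refine ⟨?_, fun s hs => (h s hs).1⟩
          rintro rfl
          exact (h a hav).2 ⟨rfl, ha⟩
        · rintro ⟨h, h'⟩ s hs
          exact ⟨h' s hs, fun h'' => h h''.1⟩
      rw [this, if_pos hv]
      exact_mod_cast (card_erase_add_one hv.1).symm
    · have : J (inn D) U' v = J (inn D) U v := by
        ext y
        rw [mem_J, mem_J]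
        simp only [hmemU']
        constructor
        · intro h s hs
          exact (h s hs).1
        · intro h s hs
          refine ⟨h s hs, ?_⟩
          rintro ⟨rfl, hsK⟩
          exact hv ⟨mem_J.2 h, s, hsK, hs⟩
      rw [this, if_neg hv, add_zero]
  unfold o at h3
  have h4 : (K.card : ℝ) ≤
      ((univ.filter fun v => x ∈ J (inn D) U v ∧ ∃ a ∈ K, a ∈ inn D v).card : ℝ) := by
    linarith
  exact_mod_cast h4

theorem contra [Nonempty V] (D : OGraph V) (hout : ∀ v, ∃ u, D.arc v u)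
    (hG : ∀ X : Finset V, cl D X ≠ X → c D (cl D X) < c D X) : False := by
  obtain ⟨B, U, hV, hmin⟩ := exists_min D
  have hL := lemma1 (inn D) U _ (c D) B (c_sub D) hV.sub (row hV hmin) (col hV hmin) rfl
  have hG' : ∀ X : Finset V, c D (cl D X) ≤ c D X := by
    intro X
    by_cases h : cl D X = X
    · rw [h]
    · exact (hG X h).le
  obtain ⟨X, hX⟩ : ∃ X : V → Finset V, X = J (inn D) B := ⟨_, rfl⟩
  obtain ⟨Q, hQ⟩ : ∃ Q : V → Finset V, Q = fun a => cl D (J (inn D) U a) := ⟨_, rfl⟩
  obtain ⟨Y, hY⟩ : ∃ Y : V → Finset V,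
      ∀ b x, x ∈ Y b ↔ ∀ y, x ∈ inn D y → y ≠ b → b ∉ Q y := by
    classical
    exact ⟨fun b => univ.filter fun x => ∀ y, x ∈ inn D y → y ≠ b → b ∉ Q y, by simp⟩
  have hXself : ∀ a, a ∈ X a := by
    intro a
    rw [hX, mem_J]
    intro s hs
    rcases mem_inn.1 hs with rfl | h
    · exact hV.self s
    · exact hV.arc s a h
  have hXQ : ∀ a, cl D (X a) ⊆ Q a := by
    intro a
    rw [hX, hQ]
    exact cl_mono D (J_mono hV.sub a)
  have hQno : ∀ b z, z ∈ Q b → ¬ D.arc z b := by
    intro b z hz hzb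
    rw [hQ] at hz
    obtain ⟨x, hx, hxz⟩ := mem_cl'.1 hz
    rw [mem_J] at hx
    rcases mem_inn.1 hxz with rfl | h
    · exact hV.no b x (hx b (self_inn D b)) hzb
    · exact hV.no z x (hx z (mem_inn.2 (Or.inr hzb))) h
  have hYself : ∀ b, b ∈ Y b := by
    intro b
    rw [hY]
    intro y hy hyb hQy
    rcases mem_inn.1 hy with h | h
    · exact hyb h.symm
    · exact hQno y b hQy h
  have hYQ : ∀ b y, y ∈ cl D (Y b) → y ≠ b → b ∉ Q y := by
    intro b y hy hyb
    obtain ⟨x, hx, hxy⟩ := mem_cl'.1 hy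
    exact (hY b x).1 hx y hxy hyb
  -- (iii)
  have hQU : ∀ y, Q y ⊆ cl D (U y) := by
    intro y
    rw [hQ]
    refine cl_mono D fun x hx => ?_
    rw [mem_J] at hx
    exact hx y (self_inn D y)
  have h3 : ∑ b, c D (Y b) ≤ ∑ y, (((cl D (U y)).card : ℝ) - (Q y).card) := by
    have e1 : ∀ b, c D (Y b) ≤ ((univ.filter fun y => b ∈ cl D (U y) \ Q y).card : ℝ) := by
      intro b
      rw [c_eq]
      have : cl D (Y b) \ Y b ⊆ univ.filter fun y => b ∈ cl D (U y) \ Q y := by
        intro y hy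
        obtain ⟨hy1, hy2⟩ := mem_sdiff.1 hy
        have hyb : y ≠ b := by
          rintro rfl
          exact hy2 (hYself y)
        refine mem_filter.2 ⟨mem_univ _, mem_sdiff.2 ⟨?_, hYQ b y hy1 hyb⟩⟩
        rw [hY] at hy2
        push Not at hy2
        obtain ⟨y', hyy', -, hb⟩ := hy2
        rw [hQ] at hb
        obtain ⟨x, hx, hxb⟩ := mem_cl'.1 hb
        rw [mem_J] at hx
        exact mem_cl'.2 ⟨x, hx y hyy', hxb⟩
      exact_mod_cast card_le_card this
    refine (sum_le_sum fun b _ => e1 b).trans ?_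
    have e2 := dc (fun y => cl D (U y) \ Q y)
    have e3 : ∑ y, (((cl D (U y)).card : ℝ) - (Q y).card) =
        ∑ y, ((cl D (U y) \ Q y).card : ℝ) := by
      refine sum_congr rfl fun y _ => ?_
      have h4 : ((cl D (U y) \ Q y).card : ℝ) + (Q y).card = (cl D (U y)).card := by
        exact_mod_cast card_sdiff_add_card_eq_card (hQU y)
      linarith
    rw [e3]
    exact_mod_cast e2.ge
  -- (iv)
  obtain ⟨U0, hU0⟩ : ∃ U0 : V → Finset V, ∀ y b, b ∈ U0 y ↔ y ∉ cl D (Y b) ∨ y = b := by
    classical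
    exact ⟨fun y => univ.filter fun b => y ∉ cl D (Y b) ∨ y = b, by simp⟩
  have hV0 : Valid D (fun a => cl D (X a)) U0 := by
    refine ⟨fun a => subset_cl D _ (hXself a), fun a x h => ?_, fun y b hb => ?_,
      fun y b hb h => ?_⟩
    · exact mem_cl.2 (Or.inr ⟨a, hXself a, h⟩)
    · rw [hU0]
      by_cases hyb : y = b
      · exact Or.inr hyb
      · exact Or.inl fun h => hYQ b y h hyb (hXQ y hb)
    · rw [hU0] at hb
      rcases hb with hb | rfl
      · exact hb (mem_cl.2 (Or.inr ⟨b, hYself b, h⟩))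
      · exact D.loopless _ h
  have h4 : o D (fun a => cl D (X a)) U0 ≤
      ∑ a, c D (cl D (X a)) + ∑ b, c D (cl D (Y b)) := by
    unfold o
    have hJU0 : ∀ y, J (inn D) U0 y ⊆ U0 y := by
      intro y b hb
      rw [mem_J] at hb
      exact hb y (self_inn D y)
    have e1 : ∑ y, ((U0 y).card : ℝ) - ∑ y, ((J (inn D) U0 y).card : ℝ) =
        ∑ y, ((U0 y \ J (inn D) U0 y).card : ℝ) := by
      rw [← sum_sub_distrib]
      refine sum_congr rfl fun y _ => ?_
      have h4 : ((U0 y \ J (inn D) U0 y).card : ℝ) + (J (inn D) U0 y).card = (U0 y).card := by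
        exact_mod_cast card_sdiff_add_card_eq_card (hJU0 y)
      linarith
    have e2 := dc (fun y => U0 y \ J (inn D) U0 y)
    have e3 : ∑ b, ((univ.filter fun y => b ∈ U0 y \ J (inn D) U0 y).card : ℝ) ≤
        ∑ b, c D (cl D (Y b)) := by
      refine sum_le_sum fun b _ => ?_
      rw [c_eq]
      have : (univ.filter fun y => b ∈ U0 y \ J (inn D) U0 y) ⊆
          cl D (cl D (Y b)) \ cl D (Y b) := by
        intro y hy
        obtain ⟨hb1, hb2⟩ := mem_sdiff.1 (mem_filter.1 hy).2
        rw [mem_J] at hb2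
        push Not at hb2
        obtain ⟨s, hs, hbs⟩ := hb2
        rw [hU0] at hbs
        push Not at hbs
        obtain ⟨hs1, hs2⟩ := hbs
        refine mem_sdiff.2 ⟨mem_cl'.2 ⟨s, hs1, hs⟩, ?_⟩
        rw [hU0] at hb1
        rcases hb1 with hb1 | rfl
        · exact hb1
        · exfalso
          rcases mem_inn.1 hs with h | h
          · exact hs2 h
          · exact hYQ y s hs1 hs2 (hXQ s (mem_cl.2 (Or.inr ⟨s, hXself s, h⟩)))
      exact_mod_cast card_le_card this
    have e4 : ∑ y, ((U0 y \ J (inn D) U0 y).card : ℝ) =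
        ∑ b, ((univ.filter fun y => b ∈ U0 y \ J (inn D) U0 y).card : ℝ) := by
      exact_mod_cast e2
    rw [e1, e4]
    linarith
  -- (v)
  have h5 : ∃ a, cl D (X a) ≠ X a := by
    by_contra hcon
    push Not at hcon
    choose f hf using hout
    have hit : ∀ a n, f^[n] a ∈ X a := by
      intro a n
      induction n with
      | zero => exact hXself a
      | succ n ih =>
        rw [Function.iterate_succ_apply', ← hcon a]
        exact mem_cl.2 (Or.inr ⟨_, ih, hf _⟩)
    obtain ⟨v⟩ := ‹Nonempty V›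
    obtain ⟨m, n, hmn, he⟩ := Finite.exists_ne_map_eq_of_infinite (fun n : ℕ => f^[n] v)
    have key : ∀ m n : ℕ, m < n → f^[m] v = f^[n] v → False := by
      intro m n hlt he
      obtain ⟨k, rfl⟩ := Nat.exists_eq_add_of_lt hlt
      set a := f^[m] v with ha
      have h6 : f (f^[k] a) = a := by
        have h9 : k.succ + m = m + k + 1 := by omega
        rw [← Function.iterate_succ_apply' f, ha, ← Function.iterate_add_apply, h9]
        exact he.symm
      have h7 := hQno a (f^[k] a) (hXQ a (subset_cl D _ (hit a k)))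
      apply h7
      have h8 := hf (f^[k] a)
      rwa [h6] at h8
    rcases lt_or_gt_of_ne hmn with h | h
    · exact key m n h he
    · exact key n m h he.symm
  obtain ⟨a, ha⟩ := h5
  have h6 : ∑ a, c D (cl D (X a)) < ∑ a, c D (X a) :=
    sum_lt_sum (fun a _ => hG' (X a)) ⟨a, mem_univ _, hG (X a) ha⟩
  have h7 : ∑ b, c D (cl D (Y b)) ≤ ∑ b, c D (Y b) := sum_le_sum fun b _ => hG' (Y b)
  have h8 := hmin _ _ hV0
  have e2 : ∑ v, (c D (J (inn D) U v) - c D (J (inn D) B v)) =
      ∑ v, ((Q v).card : ℝ) - ∑ v, ((J (inn D) U v).card : ℝ) - ∑ a, c D (X a) := by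
    rw [sum_sub_distrib, hX]
    congr 1
    rw [← sum_sub_distrib]
    refine sum_congr rfl fun v _ => ?_
    rw [hQ]
    rfl
  have e3 : ∑ a, (c D (U a) - c D (B a)) =
      ∑ a, ((cl D (U a)).card : ℝ) - ∑ a, ((U a).card : ℝ) - ∑ a, c D (B a) := by
    rw [sum_sub_distrib]
    congr 1
    rw [← sum_sub_distrib]
    rfl
  rw [e2, e3] at hL
  rw [sum_sub_distrib] at h3
  have h9 : o D B U = ∑ a, c D (B a) + (∑ a, ((U a).card : ℝ) -
    ∑ a, ((J (inn D) U a).card : ℝ)) := rfl
  linarith

end Vale.Agent.P038.H645
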